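import Crest.Agent.N334.I.Mix

/-!
# Row 334, S0519 (helper21): the class-0 laws
-/

set_option autoImplicit false

open MeasureTheory Finset
open scoped ENNReal

namespace Crest.Agent.N334.I

theorem integral_dens {E : Type*} [NormedAddCommGroup E] [NormedSpace ℝ E] {f : ℝ → ℝ}
    (hf : Measurable f) (hf0 : ∀ a, 0 ≤ f a) (F : ℝ → E) :
    ∫ a, F a ∂dens f = ∫ a, f a • F a := by
  rw [dens, integral_withDensity_eq_integral_toReal_smul hf.ennreal_ofReal
    (Filter.Eventually.of_forall fun _ => ENNReal.ofReal_lt_top)]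
  simp only [ENNReal.toReal_ofReal (hf0 _)]

theorem isFinite_dens {h : ℝ} (hh : 0 < h) {f : ℝ → ℝ} (hf : ∀ a, f a ≤ ud h a) :
    IsFiniteMeasure (dens f) :=
  have := isProb_unif hh
  isFiniteMeasure_of_le _ (dens_mono hf)

/-- a constant density on an interval -/
theorem dens_indicator (D x y : ℝ) : dens ((Set.Icc x y).indicator fun _ => D) =
    ENNReal.ofReal D • volume.restrict (Set.Icc x y) := by
  rw [← withDensity_const, ← withDensity_indicator measurableSet_Icc, dens]
  congr 1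
  funext a
  by_cases ha : a ∈ Set.Icc x y <;> simp [ha]

variable {h : ℝ}

theorem chi_nonneg (h : ℝ) (c : ℕ) (a : ℝ) : 0 ≤ chi h c a := le_max_left _ _

theorem chi_le_one (h : ℝ) (c : ℕ) (a : ℝ) : chi h c a ≤ 1 := max_le zero_le_one (min_le_left _ _)

theorem continuous_chi (h : ℝ) (c : ℕ) : Continuous (chi h c) := by unfold chi; fun_prop

theorem measurable_chi (h : ℝ) (c : ℕ) : Measurable (chi h c) := (continuous_chi h c).measurable

theorem chi_eq (hh : 0 < h) (c : ℕ) (a : ℝ) :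
    chi h c a = max 0 (min 1 (2 - (h - |a|) / (h / 2 ^ c))) := by
  unfold chi
  congr 3
  field_simp

theorem chi_eq_one (hh : 0 < h) {c : ℕ} {a : ℝ} (ha : h - |a| ≤ h / 2 ^ c) : chi h c a = 1 := by
  have : (h - |a|) / (h / 2 ^ c) ≤ 1 := (div_le_one (by positivity)).2 ha
  rw [chi_eq hh, min_eq_left (by linarith), max_eq_right zero_le_one]

theorem lt_of_chi_ne (hh : 0 < h) {c : ℕ} {a : ℝ} (ha : chi h c a ≠ 0) :
    h - |a| < 2 * (h / 2 ^ c) := by
  by_contra h'
  have : 2 ≤ (h - |a|) / (h / 2 ^ c) := (le_div_iff₀ (by positivity)).2 (not_lt.1 h')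
  exact ha (by rw [chi_eq hh]; exact max_eq_left ((min_le_right _ _).trans (by linarith)))

theorem half_pow (h : ℝ) (c : ℕ) : h / 2 ^ (c + 1) = h / 2 ^ c / 2 := by rw [pow_succ, div_div]

theorem chi_succ_le (hh : 0 < h) (c : ℕ) (a : ℝ) : chi h (c + 1) a ≤ chi h c a := by
  rcases le_total (h - |a|) (h / 2 ^ c) with h1 | h1
  · rw [chi_eq_one hh h1]; exact chi_le_one _ _ _
  · by_cases h2 : chi h (c + 1) a = 0
    · rw [h2]; exact chi_nonneg _ _ _
    · have := lt_of_chi_ne hh h2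
      rw [half_pow] at this
      linarith

theorem chi_lip (hh : 0 < h) (c : ℕ) (a x : ℝ) :
    |chi h c a - chi h c x| ≤ |a - x| / (h / 2 ^ c) := by
  have hγ : 0 < h / 2 ^ c := by positivity
  rw [chi_eq hh, chi_eq hh, max_comm, max_comm 0]
  refine (abs_max_sub_max_le_abs _ _ _).trans ((abs_min_sub_min_le_max _ _ _ _).trans ?_)
  rw [sub_self, abs_zero]
  refine max_le (by positivity) ?_
  rw [show 2 - (h - |a|) / (h / 2 ^ c) - (2 - (h - |x|) / (h / 2 ^ c)) =
    (|a| - |x|) / (h / 2 ^ c) by ring, abs_div, abs_of_pos hγ]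
  exact div_le_div_of_nonneg_right (abs_abs_sub_abs_le_abs_sub a x) hγ.le

theorem chi_zero_mul (hh : 0 < h) (a : ℝ) : chi h 0 a * ud h a = ud h a := by
  rw [chi_eq_one hh (by simp), one_mul]

theorem chi_ud_le (hh : 0 < h) (c : ℕ) (a : ℝ) : chi h c a * ud h a ≤ ud h a :=
  mul_le_of_le_one_left (ud_nonneg hh a) (chi_le_one _ _ _)

theorem chi_ud_nonneg (hh : 0 < h) (c : ℕ) (a : ℝ) : 0 ≤ chi h c a * ud h a :=
  mul_nonneg (chi_nonneg _ _ _) (ud_nonneg hh a)

theorem cls_ud_le (hh : 0 < h) (c : ℕ) (a : ℝ) : (1 - chi h c a) * ud h a ≤ ud h a :=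
  mul_le_of_le_one_left (ud_nonneg hh a) (by linarith [chi_nonneg h c a])

theorem cls_ud_nonneg (hh : 0 < h) (c : ℕ) (a : ℝ) : 0 ≤ (1 - chi h c a) * ud h a :=
  mul_nonneg (sub_nonneg.2 (chi_le_one _ _ _)) (ud_nonneg hh a)

theorem measurable_chi_ud (h : ℝ) (c : ℕ) : Measurable fun a => chi h c a * ud h a :=
  (measurable_chi h c).mul (measurable_ud h)

theorem measurable_cls_ud (h : ℝ) (c : ℕ) : Measurable fun a => (1 - chi h c a) * ud h a :=
  ((measurable_chi h c).const_sub 1).mul (measurable_ud h)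

theorem dens_chi_add (hh : 0 < h) (c : ℕ) : dens (fun a => chi h c a * ud h a) +
    dens (fun a => (1 - chi h c a) * ud h a) = dens (ud h) := by
  rw [← dens_add (measurable_chi_ud h c) (chi_ud_nonneg hh c) (cls_ud_nonneg hh c)]
  congr 1
  funext a
  ring

/-- the open part lives near the two edges -/
theorem dens_chi_le (hh : 0 < h) (c : ℕ) : dens (fun a => chi h c a * ud h a) ≤
    ENNReal.ofReal (1 / (2 * h)) • volume.restrict (Set.Icc (h - 2 * (h / 2 ^ c)) h) +
    ENNReal.ofReal (1 / (2 * h)) • volume.restrict (Set.Icc (-h) (-h + 2 * (h / 2 ^ c))) := by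
  have h0 : (0 : ℝ) ≤ 1 / (2 * h) := by positivity
  rw [← dens_indicator, ← dens_indicator, ← dens_add (measurable_const.indicator measurableSet_Icc)
    (Set.indicator_nonneg fun _ _ => h0) (Set.indicator_nonneg fun _ _ => h0)]
  refine dens_mono fun a => ?_
  have i1 := Set.indicator_nonneg (s := Set.Icc (h - 2 * (h / 2 ^ c)) h)
    (f := fun _ => 1 / (2 * h)) (fun _ _ => h0) a
  have i2 := Set.indicator_nonneg (s := Set.Icc (-h) (-h + 2 * (h / 2 ^ c)))
    (f := fun _ => 1 / (2 * h)) (fun _ _ => h0) a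
  rcases (chi_ud_nonneg hh c a).eq_or_lt with h1 | h1
  · rw [← h1]; exact add_nonneg i1 i2
  have h2 := lt_of_chi_ne hh (left_ne_zero_of_mul h1.ne')
  have h3 := abs_le_of_ud_pos (h1.trans_le (chi_ud_le hh c a))
  have h4 := (chi_ud_le hh c a).trans (ud_le h a hh)
  rcases le_total 0 a with ha | ha
  · rw [abs_of_nonneg ha] at h2 h3
    rw [Set.indicator_of_mem (Set.mem_Icc.2 ⟨by linarith, h3⟩)]
    exact h4.trans (le_add_of_nonneg_right i2)
  · rw [abs_of_nonpos ha] at h2 h3
    rw [Set.indicator_of_mem (s := Set.Icc (-h) _) (Set.mem_Icc.2 ⟨by linarith, by linarith⟩)]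
    exact h4.trans (le_add_of_nonneg_left i1)

/-- the open part dominates Lebesgue measure near an edge -/
theorem le_dens_chi (hh : 0 < h) (c : ℕ) :
    ENNReal.ofReal (1 / (2 * h)) • volume.restrict (Set.Icc (h - h / 2 ^ c) h) ≤
      dens (fun a => chi h c a * ud h a) ∧
    ENNReal.ofReal (1 / (2 * h)) • volume.restrict (Set.Icc (-h) (-h + h / 2 ^ c)) ≤
      dens (fun a => chi h c a * ud h a) := by
  have hγ : h / 2 ^ c ≤ h := div_le_self hh.le (one_le_pow₀ one_le_two)
  constructor <;> rw [← dens_indicator] <;> refine dens_mono fun a => ?_ <;>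
    refine Set.indicator_apply_le' (fun ha => ?_) fun _ => chi_ud_nonneg hh c a
  · have h1 : |a| = a := abs_of_nonneg (by linarith [ha.1])
    rw [chi_eq_one hh (by linarith [ha.1]), ud, if_pos (h1.symm ▸ ha.2), one_mul]
  · have h1 : |a| = -a := abs_of_nonpos (by linarith [ha.2])
    rw [chi_eq_one hh (by linarith [ha.2]), ud, if_pos (by linarith [ha.1]), one_mul]

theorem opn_univ_le (hh : 0 < h) (η : ℝ) (c : ℕ) :
    opn h η c Set.univ ≤ ENNReal.ofReal (2 / 2 ^ c) := by
  rw [opn, lift_univ]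
  refine (dens_chi_le hh c Set.univ).trans (le_of_eq ?_)
  have h0 : (0 : ℝ) ≤ 1 / (2 * h) := by positivity
  simp only [Measure.add_apply, Measure.smul_apply, Measure.restrict_apply_univ, Real.volume_Icc,
    smul_eq_mul, ← ENNReal.ofReal_mul h0]
  have e1 : 1 / (2 * h) * (h - (h - 2 * (h / 2 ^ c))) = 1 / 2 ^ c := by field_simp; ring
  have e2 : 1 / (2 * h) * (-h + 2 * (h / 2 ^ c) - -h) = 1 / 2 ^ c := by field_simp; ring
  rw [e1, e2, ← ENNReal.ofReal_add (by positivity) (by positivity)]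
  congr 1; ring

theorem isFinite_opn (hh : 0 < h) (η : ℝ) (c : ℕ) : IsFiniteMeasure (opn h η c) :=
  have := isFinite_dens hh (chi_ud_le hh c)
  inferInstanceAs (IsFiniteMeasure (lift _ _))

theorem isFinite_cls (hh : 0 < h) (η : ℝ) (c : ℕ) : IsFiniteMeasure (cls h η c) :=
  have := isFinite_dens hh (cls_ud_le hh c)
  inferInstanceAs (IsFiniteMeasure (lift _ _))

theorem map_re_lawC (hh : 0 < h) (η : ℝ) (c : ℕ) : (lawC h η c).map Complex.re = dens (ud h) := by
  rw [lawC, Measure.map_add _ _ Complex.measurable_re, opn, cls, map_re_lift, map_re_lift,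
    dens_chi_add hh]

theorem isProb_lawC' (hh : 0 < h) (η : ℝ) (c : ℕ) : IsProbabilityMeasure (lawC h η c) := by
  have := isProb_unif hh
  refine ⟨?_⟩
  rw [lawC, Measure.add_apply, opn, cls, lift_univ, lift_univ, ← Measure.add_apply, dens_chi_add hh,
    measure_univ]

theorem lawC_zero (hh : 0 < h) (η : ℝ) : lawC h η 0 = lift (η + h) (dens (ud h)) := by
  have : (fun a => (1 - chi h 0 a) * ud h a) = fun _ => 0 := funext fun a => by
    rw [sub_mul, chi_zero_mul hh, one_mul, sub_self]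
  simp only [lawC, opn, cls, chi_zero_mul hh, this, pow_zero, div_one]
  simp [dens, lift]


theorem ae_opn (hh : 0 < h) (η : ℝ) (c : ℕ) : ∀ᵐ t ∂opn h η c,
    t.im = -(η + h / 2 ^ c) ∧ |t.re| ≤ h ∧ h - |t.re| < 2 * (h / 2 ^ c) := by
  refine (ae_lift_im _ _).and (ae_lift ?_ (ae_dens (measurable_chi_ud h c) fun a ha => ?_))
  · exact (measurableSet_le (f := fun t : ℂ => |t.re|) (by fun_prop) measurable_const).inter
      (measurableSet_lt (f := fun t : ℂ => h - |t.re|) (by fun_prop) measurable_const)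
  · rw [pt_re]
    exact ⟨abs_le_of_ud_pos (ha.trans_le (chi_ud_le hh c a)),
      lt_of_chi_ne hh (left_ne_zero_of_mul ha.ne')⟩

theorem ae_cls (hh : 0 < h) (η : ℝ) (c : ℕ) : ∀ᵐ t ∂cls h η c, t.im = -η ∧ |t.re| ≤ h := by
  refine (ae_lift_im _ _).and (ae_lift (measurableSet_le (by fun_prop) measurable_const)
    (ae_dens (measurable_cls_ud h c) fun a ha => ?_))
  rw [pt_re]
  exact abs_le_of_ud_pos (ha.trans_le (cls_ud_le hh c a))

end Crest.Agent.N334.I
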