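import Crest.Agent.N334.I.Defs

/-!
# Row 334, S0519 (helper21): the discrete torus
-/

set_option autoImplicit false

open Finset

namespace Crest.Agent.N334.I

variable {M : ℕ}

/-! ### `ℤ²` -/

theorem n1_eq (v : Fin 2 → ℤ) : n1 v = (v 0).natAbs + (v 1).natAbs := Fin.sum_univ_two _

theorem n1_cast (v : Fin 2 → ℤ) : (n1 v : ℤ) = |v 0| + |v 1| := by
  rw [n1_eq]; push_cast; simp

@[simp] theorem n1_zero : n1 0 = 0 := by simp [n1]

theorem n1_eq_zero {v : Fin 2 → ℤ} : n1 v = 0 ↔ v = 0 := by
  simp [n1, funext_iff]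

theorem natAbs_le_n1 (v : Fin 2 → ℤ) (j : Fin 2) : (v j).natAbs ≤ n1 v :=
  Finset.single_le_sum (f := fun j => (v j).natAbs) (fun _ _ => Nat.zero_le _) (mem_univ j)

theorem n1_add_le (u v : Fin 2 → ℤ) : n1 (u + v) ≤ n1 u + n1 v := by
  simp only [n1_eq, Pi.add_apply]; omega

theorem n1_neg (v : Fin 2 → ℤ) : n1 (-v) = n1 v := by simp [n1]

theorem n1_single (j : Fin 2) (k : ℤ) : n1 (Pi.single j k) = k.natAbs := by
  fin_cases j <;> simp [n1_eq]

theorem n1_eq_one {v : Fin 2 → ℤ} (h : n1 v = 1) :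
    ∃ j, v = Pi.single j 1 ∨ v = -Pi.single j 1 := by
  rw [n1_eq] at h
  have : (v 0 = 1 ∧ v 1 = 0) ∨ (v 0 = -1 ∧ v 1 = 0) ∨ (v 0 = 0 ∧ v 1 = 1) ∨ (v 0 = 0 ∧ v 1 = -1) := by
    omega
  rcases this with h | h | h | h
  · exact ⟨0, Or.inl (funext fun j => by fin_cases j <;> simp [h])⟩
  · exact ⟨0, Or.inr (funext fun j => by fin_cases j <;> simp [h])⟩
  · exact ⟨1, Or.inl (funext fun j => by fin_cases j <;> simp [h])⟩
  · exact ⟨1, Or.inr (funext fun j => by fin_cases j <;> simp [h])⟩

/-! ### coordinates -/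

@[simp] theorem off_self (x : Tor M) : off x x = 0 := by funext j; simp [off]

@[simp] theorem shift_off (y x : Tor M) : shift y (off y x) = x := by funext j; simp [shift, off]

@[simp] theorem shift_zero (y : Tor M) : shift y 0 = y := by funext j; simp [shift]

theorem shift_add (y : Tor M) (u v : Fin 2 → ℤ) : shift y (u + v) = shift (shift y u) v := by
  funext j; simp [shift, add_assoc]

theorem shift_single (y : Tor M) (j : Fin 2) : shift y (Pi.single j 1) = y + Pi.single j 1 := by
  funext i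
  rcases eq_or_ne i j with rfl | h
  · simp [shift]
  · simp [shift, h]

theorem shift_neg_single (y : Tor M) (j : Fin 2) :
    shift y (-Pi.single j 1) = y - Pi.single j 1 := by
  funext i
  rcases eq_or_ne i j with rfl | h
  · simp [shift, sub_eq_add_neg]
  · simp [shift, h]

theorem shift_add_single (y : Tor M) (v : Fin 2 → ℤ) (j : Fin 2) :
    shift y (v + Pi.single j 1) = shift y v + Pi.single j 1 := by rw [shift_add, shift_single]

theorem shift_sub_single (y : Tor M) (v : Fin 2 → ℤ) (j : Fin 2) :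
    shift y (v - Pi.single j 1) = shift y v - Pi.single j 1 := by
  rw [sub_eq_add_neg, shift_add, shift_neg_single]

theorem off_injective (y : Tor M) : Function.Injective (off y) := fun x x' h => by
  rw [← shift_off y x, h, shift_off]


theorem off_eq_off_zero (y x : Tor M) : off y x = off 0 (x - y) := by funext j; simp [off]

theorem natAbs_off_comm (x y : Tor M) (j : Fin 2) : (off x y j).natAbs = (off y x j).natAbs := by
  simp only [off]
  rw [← ZMod.natAbs_valMinAbs_neg, neg_sub]

theorem off_shift [NeZero M] (y : Tor M) {v : Fin 2 → ℤ} (hv : ∀ j, 2 * (v j).natAbs < M) :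
    off y (shift y v) = v := by
  funext j
  have := hv j
  simp only [off, shift, add_sub_cancel_left]
  exact (ZMod.valMinAbs_spec _ _).2 ⟨rfl, by constructor <;> omega⟩

theorem off_shift' [NeZero M] (y : Tor M) {v : Fin 2 → ℤ} (hv : 2 * n1 v < M) :
    off y (shift y v) = v :=
  off_shift y fun j => by have := natAbs_le_n1 v j; omega

theorem natAbs_off_shift_le [NeZero M] (y : Tor M) (v : Fin 2 → ℤ) (j : Fin 2) :
    (off y (shift y v) j).natAbs ≤ (v j).natAbs := by
  simp only [off, shift, add_sub_cancel_left]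
  exact ZMod.natAbs_min_of_le_div_two M _ _ (ZMod.coe_valMinAbs _) (ZMod.natAbs_valMinAbs_le _)


/-! ### distance -/

@[simp] theorem d1_self (x : Tor M) : d1 x x = 0 := by simp [d1]

theorem d1_comm (x y : Tor M) : d1 x y = d1 y x := by simp only [d1, n1, natAbs_off_comm x y]

theorem d1_eq_zero {x y : Tor M} : d1 x y = 0 ↔ x = y := by
  rw [d1, n1_eq_zero, ← off_self y]
  exact (off_injective y).eq_iff


theorem d1_shift_le [NeZero M] (y : Tor M) (v : Fin 2 → ℤ) : d1 (shift y v) y ≤ n1 v := by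
  unfold d1 n1
  exact Finset.sum_le_sum fun j _ => natAbs_off_shift_le y v j

theorem d1_shift [NeZero M] (y : Tor M) {v : Fin 2 → ℤ} (hv : 2 * n1 v < M) :
    d1 (shift y v) y = n1 v := by rw [d1, off_shift' y hv]

theorem d1_triangle [NeZero M] (x y z : Tor M) : d1 x z ≤ d1 x y + d1 y z := by
  have : x = shift z (off z y + off y x) := by rw [shift_add, shift_off, shift_off]
  conv_lhs => rw [this]
  refine (d1_shift_le _ _).trans ((n1_add_le _ _).trans ?_)
  rw [add_comm]; rfl



theorem d1_add_single_le [NeZero M] (x : Tor M) (j : Fin 2) : d1 (x + Pi.single j 1) x ≤ 1 := by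
  rw [← shift_single]
  exact (d1_shift_le _ _).trans (by rw [n1_single]; rfl)


theorem dsq_nonneg (x y : Tor M) : 0 ≤ dsq x y := Finset.sum_nonneg fun _ _ => sq_nonneg _

theorem d1_cast (x y : Tor M) : (d1 x y : ℝ) = |(off y x 0 : ℝ)| + |(off y x 1 : ℝ)| := by
  have := n1_cast (off y x)
  rw [d1]
  exact_mod_cast this

theorem dsq_le (x y : Tor M) : dsq x y ≤ (d1 x y : ℝ) ^ 2 := by
  rw [d1_cast, dsq, Fin.sum_univ_two, ← sq_abs (off y x 0 : ℝ), ← sq_abs (off y x 1 : ℝ)]
  nlinarith [mul_nonneg (abs_nonneg (off y x 0 : ℝ)) (abs_nonneg (off y x 1 : ℝ))]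




/-! ### balls -/

section Ball

variable [NeZero M]

@[simp] theorem mem_ball {x y : Tor M} {r : ℕ} : x ∈ ball y r ↔ d1 x y ≤ r := by simp [ball]

theorem self_mem_ball (y : Tor M) (r : ℕ) : y ∈ ball y r := by simp

theorem ball_mono (y : Tor M) {r r' : ℕ} (h : r ≤ r') : ball y r ⊆ ball y r' := fun _ hx =>
  mem_ball.2 ((mem_ball.1 hx).trans h)

theorem ball_subset {y y' : Tor M} {r r' : ℕ} (h : d1 y y' + r ≤ r') : ball y r ⊆ ball y' r' :=
  fun x hx => mem_ball.2 (by have := d1_triangle x y y'; have := mem_ball.1 hx; omega)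

theorem card_ball_le (y : Tor M) (r : ℕ) : (ball y r).card ≤ (2 * r + 1) ^ 2 := by
  have h1 : (ball y r).card ≤ (Fintype.piFinset fun _ : Fin 2 => Finset.Icc (-(r : ℤ)) r).card := by
    refine Finset.card_le_card_of_injOn (off y) (fun x hx => ?_) (off_injective y).injOn
    have hx' := mem_ball.1 (mem_coe.1 hx)
    simp only [mem_coe, Fintype.mem_piFinset, Finset.mem_Icc]
    intro j
    have := natAbs_le_n1 (off y x) j
    rw [d1] at hx'
    constructor <;> omega
  refine h1.trans (le_of_eq ?_)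
  rw [Fintype.card_piFinset, Finset.prod_const, Int.card_Icc, card_univ, Fintype.card_fin]
  congr 1
  omega


end Ball

/-! ### adjacency -/

theorem tadj_symm (x y : Tor M) : tadj x y = tadj y x :=
  Finset.sum_congr rfl fun j _ => by
    rw [add_comm]
    congr 1 <;> refine if_congr ⟨fun h => ?_, fun h => ?_⟩ rfl rfl <;> rw [h] <;> simp

theorem tadj_nonneg (x y : Tor M) : 0 ≤ tadj x y :=
  Finset.sum_nonneg fun _ _ => add_nonneg (by split_ifs <;> norm_num) (by split_ifs <;> norm_num)

theorem tadj_add_right (x y u : Tor M) : tadj (x + u) (y + u) = tadj x y :=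
  Finset.sum_congr rfl fun j _ => by
    congr 1
    · exact if_congr (by rw [add_right_comm, add_left_inj]) rfl rfl
    · exact if_congr (by rw [add_sub_right_comm, add_left_inj]) rfl rfl

variable [NeZero M]

theorem sum_tadj_mul (x : Tor M) (f : Tor M → ℂ) :
    ∑ y, (tadj x y : ℂ) * f y = ∑ j, (f (x + Pi.single j 1) + f (x - Pi.single j 1)) := by
  simp only [tadj]
  push_cast
  simp only [Finset.sum_mul, add_mul, apply_ite Complex.ofReal, Complex.ofReal_one,
    Complex.ofReal_zero, ite_mul, one_mul, zero_mul]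
  rw [Finset.sum_comm]
  simp [Finset.sum_add_distrib]

theorem sum_tadj_mul_real (x : Tor M) (f : Tor M → ℝ) :
    ∑ y, tadj x y * f y = ∑ j, (f (x + Pi.single j 1) + f (x - Pi.single j 1)) := by
  simp only [tadj, Finset.sum_mul, add_mul, ite_mul, one_mul, zero_mul]
  rw [Finset.sum_comm]
  simp [Finset.sum_add_distrib]

theorem sum_tadj (x : Tor M) : ∑ y, tadj x y = 4 := by
  have := sum_tadj_mul_real x fun _ => 1
  simp only [mul_one] at this
  rw [this]; simp; norm_num

theorem sum_abs_tadj (x : Tor M) : ∑ y, |tadj x y| ≤ 4 := by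
  simp only [abs_of_nonneg (tadj_nonneg x _), sum_tadj, le_rfl]

omit [NeZero M] in
theorem tadj_ne_zero {x y : Tor M} (h : tadj x y ≠ 0) :
    ∃ j, y = x + Pi.single j 1 ∨ y = x - Pi.single j 1 := by
  obtain ⟨j, -, hj⟩ := Finset.exists_ne_zero_of_sum_ne_zero h
  refine ⟨j, ?_⟩
  by_contra h'
  push Not at h'
  simp [h'.1, h'.2] at hj


omit [NeZero M] in
theorem tgraph_adj {x y : Tor M} : (tgraph M).Adj x y ↔ d1 x y = 1 := Iff.rfl

omit [NeZero M] in
theorem eq_of_adj {x y : Tor M} (h : (tgraph M).Adj x y) :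
    ∃ j, y = x + Pi.single j 1 ∨ y = x - Pi.single j 1 := by
  obtain ⟨j, hj | hj⟩ := n1_eq_one (v := off x y) (tgraph_adj.1 h.symm)
  · exact ⟨j, Or.inl (by rw [← shift_single, ← hj, shift_off])⟩
  · exact ⟨j, Or.inr (by rw [← shift_neg_single, ← hj, shift_off])⟩

theorem tgraph_adj_iff (hM : 3 ≤ M) {x y : Tor M} :
    (tgraph M).Adj x y ↔ ∃ j, y = x + Pi.single j 1 ∨ y = x - Pi.single j 1 := by
  refine ⟨eq_of_adj, ?_⟩
  rintro ⟨j, rfl | rfl⟩
  · rw [tgraph_adj, d1_comm, ← shift_single, d1_shift _ (by rw [n1_single]; simp; omega), n1_single]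
    rfl
  · rw [tgraph_adj, d1_comm, ← shift_neg_single,
      d1_shift _ (by rw [n1_neg, n1_single]; simp; omega), n1_neg, n1_single]
    rfl

theorem tadj_eq_ite (hM : 3 ≤ M) (x y : Tor M) :
    tadj x y = if (tgraph M).Adj x y then 1 else 0 := by
  have key : ∀ v : Fin 2 → ℤ, n1 v = 1 → (y = shift x v ↔ off x y = v) := fun v hv =>
    ⟨fun h => by rw [h, off_shift' _ (by omega)], fun h => by rw [← h, shift_off]⟩
  have e : ∀ j, n1 (Pi.single j 1) = 1 := fun j => by rw [n1_single]; rfl
  have e' : (tgraph M).Adj x y ↔ n1 (off x y) = 1 := by rw [tgraph_adj, d1_comm, d1]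
  simp only [tadj, ← shift_single, ← shift_neg_single, key _ (e _), key _ ((n1_neg _).trans (e _)),
    e']
  generalize off x y = v
  simp only [Fin.sum_univ_two, funext_iff, Fin.forall_fin_two, n1_eq]
  simp
  split_ifs <;> first | omega | norm_num


theorem degree_le (x : Tor M) : (tgraph M).degree x ≤ 4 := by
  have : (tgraph M).neighborFinset x ⊆ (univ.image fun j => x + Pi.single j 1) ∪
      univ.image fun j => x - Pi.single j 1 := fun y hy => by
    obtain ⟨j, h | h⟩ := eq_of_adj ((SimpleGraph.mem_neighborFinset _ _ _).1 hy)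
    · exact mem_union_left _ (mem_image.2 ⟨j, mem_univ _, h.symm⟩)
    · exact mem_union_right _ (mem_image.2 ⟨j, mem_univ _, h.symm⟩)
  refine (card_le_card this).trans ((card_union_le _ _).trans ?_)
  have h2 : ∀ f : Fin 2 → Tor M, (univ.image f).card ≤ 2 := fun f => card_image_le.trans (by simp)
  exact add_le_add (h2 _) (h2 _)

/-- a step towards `y` -/
theorem exists_step {x y : Tor M} {n : ℕ} (h : d1 x y = n + 1) :
    ∃ x', (tgraph M).Adj x x' ∧ d1 x' y = n := by
  obtain ⟨u, hu, hu'⟩ : ∃ u : Fin 2 → ℤ, n1 u = 1 ∧ n1 (off y x + u) = n := by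
    rw [d1, n1_eq] at h
    rcases lt_trichotomy (off y x 0) 0 with h0 | h0 | h0
    · exact ⟨![1, 0], by simp [n1_eq], by rw [n1_eq, Pi.add_apply, Pi.add_apply]; simp; omega⟩
    · rcases lt_trichotomy (off y x 1) 0 with h1 | h1 | h1
      · exact ⟨![0, 1], by simp [n1_eq], by rw [n1_eq, Pi.add_apply, Pi.add_apply]; simp; omega⟩
      · omega
      · exact ⟨![0, -1], by simp [n1_eq], by rw [n1_eq, Pi.add_apply, Pi.add_apply]; simp; omega⟩
    · exact ⟨![-1, 0], by simp [n1_eq], by rw [n1_eq, Pi.add_apply, Pi.add_apply]; simp; omega⟩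
  have e : shift y (off y x + u) = shift x u := by rw [shift_add, shift_off]
  have h1 := d1_shift_le y (off y x + u)
  have h2 := d1_shift_le x u
  rw [e] at h1
  have h3 := d1_triangle x (shift x u) y
  rw [d1_comm x (shift x u)] at h3
  exact ⟨shift x u, by rw [tgraph_adj, d1_comm]; omega, by omega⟩

theorem exists_walk (x y : Tor M) : ∃ p : (tgraph M).Walk x y, p.length = d1 x y := by
  generalize hn : d1 x y = n
  induction n generalizing x with
  | zero => obtain rfl := d1_eq_zero.1 hn; exact ⟨.nil, rfl⟩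
  | succ n ih =>
    obtain ⟨x', h1, h2⟩ := exists_step hn
    obtain ⟨p, hp⟩ := ih x' h2
    exact ⟨.cons h1 p, by simp [hp]⟩

theorem d1_le_length {x y : Tor M} (p : (tgraph M).Walk x y) : d1 x y ≤ p.length := by
  induction p with
  | nil => simp
  | @cons u v w h p ih =>
    have := d1_triangle u v w
    rw [tgraph_adj] at h
    simp only [SimpleGraph.Walk.length_cons]
    omega




/-- every vertex of a geodesic is between the ends -/
theorem d1_add_of_mem_support {x y z : Tor M} (p : (tgraph M).Walk x y) (hz : z ∈ p.support) :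
    d1 x z + d1 z y ≤ p.length := by
  have h1 := d1_le_length (p.takeUntil z hz)
  have h2 := d1_le_length (p.dropUntil z hz)
  have h3 := congrArg SimpleGraph.Walk.length (p.take_spec hz)
  rw [SimpleGraph.Walk.length_append] at h3
  omega

end Crest.Agent.N334.I
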